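import Vale.Agent.BinPack.Gap1Data

/-- There is a bin packing instance with fractional value `v` and optimum at least `K` with
`K - v > 241/200`. -/
theorem Vale.Agent.Results.P302.Gap1.result :
    ∃ (t : ℕ) (σ : Fin t → ℚ) (b : Fin t → ℕ) (K : ℕ) (v : ℚ),
      (∀ i, 0 < σ i ∧ σ i ≤ 1) ∧ Function.Injective σ ∧ (∀ i, 0 < b i) ∧
      (∀ (m : ℕ) (x : Fin m → Fin t → ℕ),
        (∀ j, ∑ i, σ i * (x j i : ℚ) ≤ 1) → (∀ i, ∑ j, x j i = b i) → K ≤ m) ∧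
      (∃ (m : ℕ) (c : Fin m → Fin t → ℕ) (z : Fin m → ℚ),
        (∀ j, ∑ i, σ i * (c j i : ℚ) ≤ 1) ∧ (∀ j, 0 ≤ z j) ∧
        (∀ i, (b i : ℚ) ≤ ∑ j, z j * (c j i : ℚ)) ∧ ∑ j, z j = v) ∧
      ((241 / 200 : ℚ)) < (K : ℚ) - v :=
  Vale.Agent.BinPack.Gap1Data.gap
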